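import Vale.Agent.P143.Statement

/-! P143: isomorphism classes of rooted, doubly rooted and labelled edge-rooted graphs, with the
local topology and its Borel sets. -/

set_option autoImplicit false

namespace Vale.Agent.P143L45

open Vale.Agent.P143 MeasureTheory Filter SimpleGraph unitInterval
open scoped ENNReal

universe u

/-- Infinite, connected, locally finite simple graphs. -/
structure Gr where
  V : Type u
  G : SimpleGraph V
  infinite : Infinite V
  connected : G.Connected
  locFin : ∀ v, (G.neighborSet v).Finite

/-- A graph with a root. -/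
structure Rooted extends Gr.{u} where
  o : V

/-- A graph with two distinguished vertices. -/
structure Rooted2 extends Gr.{u} where
  o : V
  v : V

/-- A graph with vertex labels in `[0,1]` and a distinguished edge. -/
structure Marked extends Gr.{u} where
  U : V → I
  e : G.edgeSet

/-- The vertices within graph distance `r` of the set `S`. -/
def ball {V : Type u} (G : SimpleGraph V) (S : Set V) (r : ℕ) : Set V :=
  {v | ∃ a ∈ S, G.dist a v ≤ r}

/-- `φ` is an isomorphism between the subgraphs induced on the balls of radius `r`. -/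
def BallIso {V V' : Type u} (G : SimpleGraph V) (S : Set V) (G' : SimpleGraph V') (S' : Set V')
    (r : ℕ) (φ : V → V') : Prop :=
  Set.BijOn φ (ball G S r) (ball G' S' r) ∧
    ∀ v ∈ ball G S r, ∀ w ∈ ball G S r, (G'.Adj (φ v) (φ w) ↔ G.Adj v w)

/-- Isomorphism of rooted graphs. -/
def Rooted.Iso (x y : Rooted.{u}) : Prop := ∃ τ : x.G ≃g y.G, τ x.o = y.o

/-- The balls of radius `r` around the roots are isomorphic. -/
def Rooted.Close (r : ℕ) (x y : Rooted.{u}) : Prop :=
  ∃ φ, BallIso x.G {x.o} y.G {y.o} r φ ∧ φ x.o = y.o

/-- Isomorphism of graphs with two distinguished vertices. -/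
def Rooted2.Iso (x y : Rooted2.{u}) : Prop := ∃ τ : x.G ≃g y.G, τ x.o = y.o ∧ τ x.v = y.v

/-- The balls of radius `r` around the distinguished vertices are isomorphic. -/
def Rooted2.Close (r : ℕ) (x y : Rooted2.{u}) : Prop :=
  ∃ φ, BallIso x.G {x.o, x.v} y.G {y.o, y.v} r φ ∧ φ x.o = y.o ∧ φ x.v = y.v

/-- The end points of the distinguished edge. -/
def Marked.ends (x : Marked.{u}) : Set x.V := {v | v ∈ (x.e : Sym2 x.V)}

/-- Isomorphism of labelled graphs with a distinguished edge. -/
def Marked.Iso (x y : Marked.{u}) : Prop :=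
  ∃ τ : x.G ≃g y.G, Sym2.map τ x.e = y.e ∧ ∀ v, y.U (τ v) = x.U v

/-- The balls of radius `r` around the distinguished edges are isomorphic, and the labels of
corresponding vertices differ by less than `1 / (r + 1)`. -/
def Marked.Close (r : ℕ) (x y : Marked.{u}) : Prop :=
  ∃ φ, BallIso x.G x.ends y.G y.ends r φ ∧ Sym2.map φ x.e = y.e ∧
    ∀ v ∈ ball x.G x.ends r, dist (y.U (φ v)) (x.U v) < 1 / ((r : ℝ) + 1)

/-- The local topology on isomorphism classes: a set of classes is open if with the class of `x`
it contains, for large `r`, the classes of all `y` that are `r`-close to `x`. -/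
def localTop {X : Type (u + 1)} (Iso : X → X → Prop) (Close : ℕ → X → X → Prop) :
    TopologicalSpace (Quot Iso) where
  IsOpen A := ∀ x, Quot.mk Iso x ∈ A → ∀ᶠ r in atTop, ∀ y, Close r x y → Quot.mk Iso y ∈ A
  isOpen_univ := fun _ _ => Eventually.of_forall fun _ _ _ => trivial
  isOpen_inter := fun _ _ hA hB x hx => ((hA x hx.1).and (hB x hx.2)).mono fun _ h y hy =>
    ⟨h.1 y hy, h.2 y hy⟩
  isOpen_sUnion := fun _ h x ⟨A, hA, hx⟩ => (h A hA x hx).mono fun _ h' y hy => ⟨A, hA, h' y hy⟩

/-- Isomorphism classes of rooted graphs. -/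
def GStar := Quot Rooted.Iso.{u}

/-- Isomorphism classes of graphs with two distinguished vertices. -/
def GStar2 := Quot Rooted2.Iso.{u}

/-- Isomorphism classes of labelled graphs with a distinguished edge. -/
def GEdge := Quot Marked.Iso.{u}

/-- The class of a rooted graph. -/
def Rooted.cls (x : Rooted.{u}) : GStar.{u} := Quot.mk _ x

/-- The class of a graph with two distinguished vertices. -/
def Rooted2.cls (x : Rooted2.{u}) : GStar2.{u} := Quot.mk _ x

/-- The class of a labelled graph with a distinguished edge. -/
def Marked.cls (x : Marked.{u}) : GEdge.{u} := Quot.mk _ x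

instance : MeasurableSpace GStar.{u} := @borel _ (localTop Rooted.Iso Rooted.Close)

instance : MeasurableSpace GStar2.{u} := @borel _ (localTop Rooted2.Iso Rooted2.Close)

instance : MeasurableSpace GEdge.{u} := @borel _ (localTop Marked.Iso Marked.Close)

/-- Law of a unimodular random graph: a Borel probability measure on classes of rooted graphs
with the mass transport principle for every nonnegative Borel function on classes of graphs with
two distinguished vertices (the sums do not depend on the representative `Quot.out y`). -/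
def Unimodular (ρ : Measure GStar.{u}) : Prop :=
  IsProbabilityMeasure ρ ∧ ∀ f : GStar2.{u} → ℝ≥0∞, Measurable f →
    ∫⁻ y, ∑' v, f (Rooted2.cls ⟨(Quot.out y).toGr, (Quot.out y).o, v⟩) ∂ρ =
      ∫⁻ y, ∑' v, f (Rooted2.cls ⟨(Quot.out y).toGr, v, (Quot.out y).o⟩) ∂ρ

/-- The law of the random edge set `{e : Φ(G, U, e) = 1}` for i.i.d. uniform labels `U`. -/
noncomputable def law (Φ : GEdge.{u} → Bool) (g : Gr.{u}) : Measure (g.G.edgeSet → Bool) :=
  (iidLabels g.V).map fun U e => Φ (Marked.cls ⟨g, U, e⟩)

/-- The FUSF is a graph factor of IID on the random rooted graph with law `ρ`. -/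
def IsGraphFactor (ρ : Measure GStar.{u}) : Prop :=
  ∃ Φ : GEdge.{u} → Bool, Measurable Φ ∧
    ∀ᵐ y ∂ρ, ∀ x : Rooted.{u}, x.cls = y → IsFUSF x.G (law Φ x.toGr)

end Vale.Agent.P143L45
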