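import Mathlib
import Vale.Agent.P143L45.Defs

/-! Balls, local isomorphisms and the rank of a vertex in the order by distance and label. -/

set_option autoImplicit false

namespace Vale.Agent.P143L45

open Set SimpleGraph unitInterval

universe u

variable {V V' : Type u} {G : SimpleGraph V} {G' : SimpleGraph V'} {S : Set V} {S' : Set V'}

theorem ball_mono {k l : ℕ} (h : k ≤ l) : ball G S k ⊆ ball G S l :=
  fun _ ⟨a, ha, hd⟩ => ⟨a, ha, hd.trans h⟩

theorem ball_zero (hG : G.Connected) : ball G S 0 = S := by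
  ext v
  refine ⟨fun ⟨a, ha, hd⟩ => ?_, fun hv => ⟨v, hv, by simp⟩⟩
  rwa [← hG.dist_eq_zero_iff.1 (Nat.le_zero.1 hd)]

theorem mem_ball_succ (hG : G.Connected) {k : ℕ} {v : V} :
    v ∈ ball G S (k + 1) ↔ v ∈ ball G S k ∨ ∃ w ∈ ball G S k, G.Adj w v := by
  constructor
  · rintro ⟨a, ha, hd⟩
    rcases Nat.lt_or_ge k (G.dist a v) with h | h
    · obtain ⟨p, hp⟩ := hG.exists_walk_length_eq_dist v a
      rw [SimpleGraph.dist_comm] at hp
      cases p with
      | nil => simp at h
      | cons h' q =>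
        refine Or.inr ⟨_, ⟨a, ha, ?_⟩, h'.symm⟩
        have := SimpleGraph.dist_le q
        rw [SimpleGraph.dist_comm] at this
        simp only [Walk.length_cons] at hp
        omega
    · exact Or.inl ⟨a, ha, h⟩
  · rintro (h | ⟨w, ⟨a, ha, hd⟩, hw⟩)
    · exact ball_mono (Nat.le_succ k) h
    · refine ⟨a, ha, ?_⟩
      have h1 := hG.dist_triangle (u := a) (v := w) (w := v)
      have h2 := SimpleGraph.dist_eq_one_iff_adj.2 hw
      omega

theorem ball_finite (hG : G.Connected) (hl : ∀ v, (G.neighborSet v).Finite) (hS : S.Finite)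
    (k : ℕ) : (ball G S k).Finite := by
  induction k with
  | zero => rwa [ball_zero hG]
  | succ k ih =>
    refine (ih.union (ih.biUnion fun w _ => hl w)).subset fun v hv => ?_
    rcases (mem_ball_succ hG).1 hv with h | ⟨w, hw, h⟩
    · exact Or.inl h
    · exact Or.inr (mem_biUnion hw h)

theorem exists_ball (hS : S.Nonempty) (v : V) : ∃ k, v ∈ ball G S k :=
  let ⟨a, ha⟩ := hS
  ⟨_, a, ha, le_rfl⟩

theorem BallIso.mono (hG : G.Connected) (hG' : G'.Connected) {r : ℕ} {φ : V → V'}
    (h : BallIso G S G' S' r φ) (hS : φ '' S = S') {k : ℕ} (hk : k ≤ r) :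
    BallIso G S G' S' k φ := by
  have key : ∀ k ≤ r, φ '' ball G S k = ball G' S' k := by
    intro k
    induction k with
    | zero => intro _; rwa [ball_zero hG, ball_zero hG']
    | succ k ih =>
      intro hk
      have ih' := ih (by omega)
      ext v'
      rw [mem_ball_succ hG', ← ih']
      constructor
      · rintro ⟨v, hv, rfl⟩
        rcases (mem_ball_succ hG).1 hv with h1 | ⟨w, hw, h1⟩
        · exact Or.inl ⟨v, h1, rfl⟩
        · exact Or.inr ⟨_, ⟨w, hw, rfl⟩,
            (h.2 w (ball_mono (by omega) hw) v (ball_mono hk hv)).2 h1⟩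
      · rintro (⟨v, hv, rfl⟩ | ⟨_, ⟨w, hw, rfl⟩, h1⟩)
        · exact ⟨v, ball_mono (Nat.le_succ k) hv, rfl⟩
        · have h2 : v' ∈ ball G' S' r := ball_mono hk
            ((mem_ball_succ hG').2 (Or.inr ⟨_, ih' ▸ ⟨w, hw, rfl⟩, h1⟩))
          obtain ⟨v, hv, rfl⟩ := h.1.surjOn h2
          exact ⟨v, (mem_ball_succ hG).2
            (Or.inr ⟨w, hw, (h.2 w (ball_mono (by omega) hw) v hv).1 h1⟩), rfl⟩
  refine ⟨?_, fun v hv w hw => h.2 v (ball_mono hk hv) w (ball_mono hk hw)⟩
  rw [← key k hk]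
  exact (h.1.injOn.mono (ball_mono hk)).bijOn_image

theorem iso_ballIso (hG : G.Connected) (hG' : G'.Connected) (τ : G ≃g G') (hS : τ '' S = S')
    (r : ℕ) : BallIso G S G' S' r τ := by
  have key : τ '' ball G S r = ball G' S' r := by
    induction r with
    | zero => rwa [ball_zero hG, ball_zero hG']
    | succ k ih =>
      ext v'
      obtain ⟨v, rfl⟩ := τ.surjective v'
      rw [mem_ball_succ hG', ← ih, τ.injective.mem_set_image, τ.injective.mem_set_image,
        mem_ball_succ hG]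
      refine or_congr Iff.rfl ⟨fun ⟨w, hw, h⟩ => ⟨_, ⟨w, hw, rfl⟩, τ.map_rel_iff.2 h⟩, ?_⟩
      rintro ⟨_, ⟨w, hw, rfl⟩, h⟩
      exact ⟨w, hw, τ.map_rel_iff.1 h⟩
  refine ⟨?_, fun v _ w _ => τ.map_rel_iff⟩
  rw [← key]
  exact τ.injective.injOn.bijOn_image

/-- The distance from the set `S`. -/
noncomputable def depth (G : SimpleGraph V) (S : Set V) (v : V) : ℕ := sInf {k | v ∈ ball G S k}

theorem depth_le (hS : S.Nonempty) {v : V} {k : ℕ} : depth G S v ≤ k ↔ v ∈ ball G S k :=
  ⟨fun h => ball_mono h (Nat.sInf_mem (exists_ball hS v)), fun h => Nat.sInf_le h⟩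

theorem BallIso.depth (hG : G.Connected) (hG' : G'.Connected) {r : ℕ} {φ : V → V'}
    (h : BallIso G S G' S' r φ) (hS : φ '' S = S') {v : V} (hv : v ∈ ball G S r) :
    depth G' S' (φ v) = depth G S v := by
  unfold P143L45.depth
  congr 1
  ext k
  rcases le_total k r with hk | hk
  · have h1 := (h.mono hG hG' hS hk).1
    refine ⟨fun h2 => ?_, fun h2 => h1.mapsTo h2⟩
    obtain ⟨w, hw, e⟩ := h1.surjOn h2
    rwa [← h.1.injOn (ball_mono hk hw) hv e]
  · exact ⟨fun _ => ball_mono hk hv, fun _ => ball_mono hk (h.1.mapsTo hv)⟩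

/-- Vertices are ordered by the distance from `S` and then by the label. -/
noncomputable def key (G : SimpleGraph V) (S : Set V) (U : V → I) (v : V) : ℕ ×ₗ I :=
  toLex (depth G S v, U v)

/-- The number of vertices before `v`. -/
noncomputable def rank (G : SimpleGraph V) (S : Set V) (U : V → I) (v : V) : ℕ :=
  {w | key G S U w < key G S U v}.ncard

theorem key_lt_sub (hS : S.Nonempty) {U : V → I} {v : V} {k : ℕ} (hv : v ∈ ball G S k) :
    {w | key G S U w < key G S U v} ⊆ ball G S k := fun w hw => by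
  rw [← depth_le hS] at hv ⊢
  rcases Prod.Lex.toLex_lt_toLex.1 hw with h | h
  · exact h.le.trans hv
  · exact h.1.le.trans hv

theorem BallIso.rank (hG : G.Connected) (hG' : G'.Connected) {r : ℕ} {φ : V → V'}
    (h : BallIso G S G' S' r φ) (hS : φ '' S = S') (hne : S.Nonempty) {U : V → I} {U' : V' → I}
    (hU : ∀ v ∈ ball G S r, ∀ w ∈ ball G S r, (U' (φ v) < U' (φ w) ↔ U v < U w)) {v : V}
    (hv : v ∈ ball G S r) : rank G' S' U' (φ v) = rank G S U v := by
  have hne' : S'.Nonempty := hS ▸ hne.image φ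
  have hk : ∀ w ∈ ball G S r, (key G' S' U' (φ w) < key G' S' U' (φ v) ↔
      key G S U w < key G S U v) := fun w hw => by
    simp only [key, Prod.Lex.toLex_lt_toLex, h.depth hG hG' hS hw, h.depth hG hG' hS hv,
      hU w hw v hv]
  have e : {w | key G' S' U' w < key G' S' U' (φ v)} = φ '' {w | key G S U w < key G S U v} := by
    ext w'
    constructor
    · intro hw'
      obtain ⟨w, hw, rfl⟩ := h.1.surjOn (key_lt_sub hne' (h.1.mapsTo hv) hw')
      exact ⟨w, (hk w hw).1 hw', rfl⟩
    · rintro ⟨w, hw, rfl⟩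
      exact (hk w (key_lt_sub hne hv hw)).2 hw
  unfold P143L45.rank
  rw [e, (h.1.injOn.mono (key_lt_sub hne hv)).ncard_image]

theorem ncard_bijective {L : Type} [LinearOrder L] [Infinite V] {f : V → L}
    (hf : Function.Injective f) (hfin : ∀ v, {w | f w < f v}.Finite) :
    Function.Bijective fun v => {w | f w < f v}.ncard := by
  have hlt : ∀ v w, f v < f w → {z | f z < f v}.ncard < {z | f z < f w}.ncard := fun v w h =>
    ncard_lt_ncard ⟨fun z hz => lt_trans hz h, fun h' => lt_irrefl _ (h' h)⟩ (hfin w)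
  have hinj : Function.Injective fun v => {w | f w < f v}.ncard := fun v w h => by
    rcases lt_trichotomy (f v) (f w) with h1 | h1 | h1
    · exact absurd h (hlt v w h1).ne
    · exact hf h1
    · exact absurd h (hlt w v h1).ne'
  refine ⟨hinj, fun n => ?_⟩
  obtain ⟨_, ⟨v, rfl⟩, hv⟩ := (infinite_range_of_injective hinj).exists_gt n
  have h1 : (fun v => {w | f w < f v}.ncard) '' {w | f w < f v} = Iio {w | f w < f v}.ncard := by
    refine eq_of_subset_of_ncard_le ?_ ?_ (finite_Iio _)
    · rintro _ ⟨w, hw, rfl⟩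
      exact hlt w v hw
    · rw [ncard_image_of_injective _ hinj]
      simp
  obtain ⟨w, -, hw⟩ := (h1.symm ▸ hv : n ∈ (fun v => {w | f w < f v}.ncard) '' {w | f w < f v})
  exact ⟨w, hw⟩

theorem rank_bijective [Infinite V] (hG : G.Connected) (hl : ∀ v, (G.neighborSet v).Finite)
    (hS : S.Finite) (hne : S.Nonempty) {U : V → I} (hU : Function.Injective U) :
    Function.Bijective (rank G S U) :=
  ncard_bijective (fun _ _ h => hU (congrArg (fun p : ℕ ×ₗ I => (ofLex p).2) h)) fun v =>
    let ⟨k, hk⟩ := exists_ball (G := G) hne v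
    (ball_finite hG hl hS k).subset (key_lt_sub hne hk)

end Vale.Agent.P143L45
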