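import Vale.Agent.P143L45.Main

/-! The classes are the isomorphism classes, points of the space of rooted graphs are Borel sets,
and Cayley graphs are unimodular. -/

set_option autoImplicit false

namespace Vale.Agent.P143L45

open Vale.Agent.P143 Set Filter MeasureTheory SimpleGraph unitInterval
open scoped ENNReal

universe u

theorem mk_eq_iff {X : Type (u + 1)} {r : X → X → Prop} (h : Equivalence r) (x y : X) :
    Quot.mk r x = Quot.mk r y ↔ r x y := Quot.eq.trans h.eqvGen_iff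

theorem Rooted.equiv : Equivalence Rooted.Iso.{u} :=
  ⟨fun _ => ⟨RelIso.refl _, rfl⟩,
    fun ⟨τ, h⟩ => ⟨τ.symm, by rw [← h, τ.symm_apply_apply]⟩,
    fun ⟨τ, h⟩ ⟨κ, h'⟩ => ⟨τ.trans κ, by rw [← h', ← h]; rfl⟩⟩

theorem Rooted2.equiv : Equivalence Rooted2.Iso.{u} :=
  ⟨fun _ => ⟨RelIso.refl _, rfl, rfl⟩,
    fun ⟨τ, h, g⟩ => ⟨τ.symm, by rw [← h, τ.symm_apply_apply], by rw [← g, τ.symm_apply_apply]⟩,
    fun ⟨τ, h, g⟩ ⟨κ, h', g'⟩ => ⟨τ.trans κ, by rw [← h', ← h]; rfl, by rw [← g', ← g]; rfl⟩⟩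

theorem Marked.equiv : Equivalence Marked.Iso.{u} :=
  ⟨fun x => ⟨RelIso.refl _, congrFun Sym2.map_id (x.e : Sym2 x.V), fun _ => rfl⟩, Marked.Iso.symm,
    fun ⟨τ, h, g⟩ ⟨κ, h', g'⟩ => ⟨τ.trans κ, by rw [← h', ← h, Sym2.map_map]; rfl,
      fun v => (g' (τ v)).trans (g v)⟩⟩

namespace Rooted

theorem Iso.close {x y : Rooted.{u}} (h : x.Iso y) (r : ℕ) : Close r x y :=
  let ⟨τ, h1⟩ := h
  ⟨τ, iso_ballIso x.connected y.connected τ (by rw [image_singleton, h1]) r, h1⟩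

theorem Close.mono {x y : Rooted.{u}} {r k : ℕ} (h : Close r x y) (hk : k ≤ r) : Close k x y :=
  let ⟨φ, h1, h2⟩ := h
  ⟨φ, h1.mono x.connected y.connected (by rw [image_singleton, h2]) hk, h2⟩

theorem Close.trans {x y z : Rooted.{u}} {r : ℕ} (h : Close r x y) (h' : Close r y z) :
    Close r x z :=
  let ⟨φ, h1, h2⟩ := h
  let ⟨ψ, h3, h4⟩ := h'
  ⟨ψ ∘ φ, ⟨h3.1.comp h1.1, fun v hv w hw =>
    (h3.2 _ (h1.1.mapsTo hv) _ (h1.1.mapsTo hw)).trans (h1.2 v hv w hw)⟩,
    by rw [Function.comp_apply, h2, h4]⟩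

/-- Graphs with isomorphic balls of all radii are isomorphic. -/
theorem iso_of_close {x y : Rooted.{u}} (h : ∀ r, Close r x y) : x.Iso y := by
  choose φ h1 h2 using h
  have hm : ∀ k, ∀ᶠ r in (hyperfilter ℕ : Filter ℕ), k ≤ r ∧
      BallIso x.G {x.o} y.G {y.o} k (φ r) := fun k =>
    ((eventually_ge_atTop k).mono fun r hr => ⟨hr, (h1 r).mono x.connected y.connected
      (by rw [image_singleton, h2]) hr⟩).filter_mono
      (hyperfilter_le_cofinite.trans Nat.cofinite_eq_atTop.le)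
  have hτ : ∀ v, ∃ v', ∀ᶠ r in (hyperfilter ℕ : Filter ℕ), φ r v = v' := fun v => by
    obtain ⟨k, hk⟩ := exists_ball (G := x.G) (singleton_nonempty x.o) v
    obtain ⟨v', -, h⟩ := (Ultrafilter.eventually_exists_mem_iff (f := hyperfilter ℕ)
      (P := fun v' r => φ r v = v') (ball_finite y.connected y.locFin (finite_singleton y.o) k)).1
      ((hm k).mono fun r hr => ⟨_, hr.2.1.mapsTo hk, rfl⟩)
    exact ⟨v', h⟩
  choose τ hτ using hτ
  have two : ∀ v w, ∃ k r, BallIso x.G {x.o} y.G {y.o} k (φ r) ∧ v ∈ ball x.G {x.o} k ∧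
      w ∈ ball x.G {x.o} k ∧ φ r v = τ v ∧ φ r w = τ w := fun v w => by
    obtain ⟨k, hk⟩ := exists_ball (G := x.G) (singleton_nonempty x.o) v
    obtain ⟨l, hl⟩ := exists_ball (G := x.G) (singleton_nonempty x.o) w
    obtain ⟨r, a1, a2, a3⟩ := ((hm (max k l)).and ((hτ v).and (hτ w))).exists
    exact ⟨_, r, a1.2, ball_mono (le_max_left _ _) hk, ball_mono (le_max_right _ _) hl, a2, a3⟩
  have hb : Function.Bijective τ := by
    refine ⟨fun v w e => ?_, fun v' => ?_⟩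
    · obtain ⟨k, r, a1, a2, a3, a4, a5⟩ := two v w
      exact a1.1.injOn a2 a3 (by rw [a4, a5, e])
    · obtain ⟨k, hk⟩ := exists_ball (G := y.G) (singleton_nonempty y.o) v'
      obtain ⟨v, -, h⟩ := (Ultrafilter.eventually_exists_mem_iff (f := hyperfilter ℕ)
        (P := fun v r => φ r v = v') (ball_finite x.connected x.locFin (finite_singleton x.o) k)).1
        ((hm k).mono fun r hr => hr.2.1.surjOn hk)
      obtain ⟨r, a1, a2⟩ := (h.and (hτ v)).exists
      exact ⟨v, a2.symm.trans a1⟩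
  refine ⟨⟨Equiv.ofBijective τ hb, fun {v w} => ?_⟩, ?_⟩
  · obtain ⟨k, r, a1, a2, a3, a4, a5⟩ := two v w
    show y.G.Adj (τ v) (τ w) ↔ _
    rw [← a4, ← a5]
    exact a1.2 v a2 w a3
  · obtain ⟨r, hr⟩ := (hτ x.o).exists
    exact hr.symm.trans (h2 r)

theorem measurableSet_singleton (x : Rooted.{u}) :
    MeasurableSet ({x.cls} : Set GStar.{u}) := by
  have e : ({x.cls} : Set GStar.{u}) = ⋂ r, {y : GStar.{u} | Close r x (Quot.out y)} := by
    ext y
    rw [mem_iInter]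
    refine Iff.trans ⟨fun h => ?_, fun h => ?_⟩
      (⟨fun h r => h.close r, iso_of_close⟩ : x.Iso (Quot.out y) ↔ _)
    · exact (mk_eq_iff equiv _ _).1 ((Eq.symm h).trans (Quot.out_eq y).symm)
    · exact ((Quot.sound h).trans (Quot.out_eq y)).symm
  have ho : ∀ z : Rooted.{u}, (Quot.out (Quot.mk Iso z)).Iso z := fun z =>
    (mk_eq_iff equiv _ _).1 (Quot.out_eq _)
  rw [e]
  refine MeasurableSet.iInter fun r => MeasurableSpace.measurableSet_generateFrom fun z hz => ?_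
  filter_upwards [eventually_ge_atTop r] with k hk y hy
  exact ((Close.trans hz ((ho z).close r)).trans (hy.mono hk)).trans
    ((equiv.symm (ho y)).close r)

end Rooted

/-- The point mass at a Cayley graph is unimodular. -/
theorem cayley_unimodular {Γ : Type u} [Group Γ] (S : Set Γ) (x : Rooted.{u})
    (τ : x.G ≃g mulCayley S) : Unimodular (Measure.dirac x.cls) := by
  haveI : MeasurableSingletonClass GStar.{u} := ⟨fun y => by
    have h := Rooted.measurableSet_singleton (Quot.out y)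
    rwa [show Rooted.cls (Quot.out y) = y from Quot.out_eq y] at h⟩
  refine ⟨Measure.dirac.isProbabilityMeasure, fun f _ => ?_⟩
  rw [lintegral_dirac, lintegral_dirac]
  obtain ⟨κ, -⟩ : Rooted.Iso (Quot.out x.cls) x :=
    (mk_eq_iff Rooted.equiv _ _).1 (Quot.out_eq (Quot.mk Rooted.Iso x))
  generalize Quot.out x.cls = z at κ
  let θ : z.G ≃g mulCayley S := κ.trans τ
  let ι : z.V ≃ z.V := θ.toEquiv.trans (((Equiv.inv Γ).trans
    ((Equiv.mulLeft (θ z.o)).trans (Equiv.mulRight (θ z.o)))).trans θ.toEquiv.symm)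
  rw [← ι.tsum_eq fun v => f (Rooted2.cls ⟨z.toGr, v, z.o⟩)]
  refine tsum_congr fun v => congrArg f (Quot.sound
    ⟨θ.trans ((leftMul S (θ z.o * (θ v)⁻¹)).trans θ.symm), rfl, ?_⟩)
  show θ.symm (θ z.o * (θ v)⁻¹ * θ v) = z.o
  rw [inv_mul_cancel_right, θ.symm_apply_apply]

end Vale.Agent.P143L45
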