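import Vale.Agent.P143L45.Ball
import Vale.Agent.P143.Bdl.B1

/-! The rule for the FUSF is a Borel function on isomorphism classes. -/

set_option autoImplicit false

namespace Vale.Agent.P143L45

open Vale.Agent.P143 Set Filter MeasureTheory SimpleGraph unitInterval

universe u

namespace Marked

theorem ends_finite (x : Marked.{u}) : x.ends.Finite := by
  obtain ⟨⟨a, b⟩, he⟩ := Quot.exists_rep (x.e : Sym2 x.V)
  refine (toFinite {a, b}).subset fun v hv => ?_
  have : v ∈ s(a, b) := by rw [ends, ← he] at hv; exact hv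
  simpa using this

theorem ends_nonempty (x : Marked.{u}) : x.ends.Nonempty := ⟨_, Sym2.out_fst_mem _⟩

theorem image_ends {x y : Marked.{u}} {φ : x.V → y.V} (h : Sym2.map φ x.e = y.e) :
    φ '' x.ends = y.ends := by
  ext v
  simp only [ends, ← h, mem_image, mem_setOf_eq, Sym2.mem_map]

theorem Iso.symm {x y : Marked.{u}} (h : x.Iso y) : y.Iso x := by
  obtain ⟨τ, h1, h2⟩ := h
  refine ⟨τ.symm, ?_, fun v => by rw [← h2, τ.apply_symm_apply]⟩
  rw [← h1, Sym2.map_map]
  have : (τ.symm : y.V → x.V) ∘ τ = id := funext τ.symm_apply_apply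
  rw [this, Sym2.map_id, id]

theorem Iso.close {x y : Marked.{u}} (h : x.Iso y) (r : ℕ) : Close r x y := by
  obtain ⟨τ, h1, h2⟩ := h
  refine ⟨τ, iso_ballIso x.connected y.connected τ (image_ends h1) r, h1, fun v _ => ?_⟩
  rw [h2, _root_.dist_self]
  positivity

/-- The ball of radius `k` around the distinguished edge. -/
abbrev B (x : Marked.{u}) (k : ℕ) : Set x.V := ball x.G x.ends k

/-- The rank of a vertex. -/
noncomputable abbrev rk (x : Marked.{u}) : x.V → ℕ := rank x.G x.ends x.U

theorem stable (x : Marked.{u}) (k : ℕ) (hx : InjOn x.U (x.B k)) :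
    ∀ᶠ r : ℕ in atTop, ∀ y, Close r x y → InjOn y.U (y.B k) ∧
      ∃ φ, BallIso x.G x.ends y.G y.ends k φ ∧ Sym2.map φ x.e = y.e ∧
        ∀ v ∈ x.B k, y.rk (φ v) = x.rk v ∧ dist (y.U (φ v)) (x.U v) < 1 / ((r : ℝ) + 1) := by
  have hfin := ball_finite x.connected x.locFin x.ends_finite k
  have gap : ∀ᶠ r : ℕ in atTop, ∀ v ∈ x.B k, ∀ w ∈ x.B k, x.U v < x.U w →
      1 / ((r : ℝ) + 1) < ((x.U w : ℝ) - x.U v) / 2 := by
    refine hfin.eventually_all.2 fun v _ => hfin.eventually_all.2 fun w _ => ?_
    by_cases h : x.U v < x.U w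
    · have h1 : (0 : ℝ) < ((x.U w : ℝ) - x.U v) / 2 := by
        have : (x.U v : ℝ) < x.U w := h
        linarith
      exact (tendsto_one_div_add_atTop_nhds_zero_nat.eventually (gt_mem_nhds h1)).mono
        fun _ h2 _ => h2
    · exact Eventually.of_forall fun _ h2 => absurd h2 h
  filter_upwards [gap, eventually_ge_atTop k] with r hr hk y ⟨φ, h1, h2, h3⟩
  have h4 := h1.mono x.connected y.connected (image_ends h2) hk
  have h5 : ∀ v ∈ x.B k, ∀ w ∈ x.B k, x.U v < x.U w → y.U (φ v) < y.U (φ w) := by
    intro v hv w hw h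
    have a1 := h3 v (ball_mono hk hv)
    have a2 := h3 w (ball_mono hk hw)
    have a3 := hr v hv w hw h
    rw [Subtype.dist_eq, Real.dist_eq, abs_lt] at a1 a2
    show (y.U (φ v) : ℝ) < y.U (φ w)
    linarith [a1.2, a2.1]
  have h6 : ∀ v ∈ x.B k, ∀ w ∈ x.B k, (y.U (φ v) < y.U (φ w) ↔ x.U v < x.U w) := by
    refine fun v hv w hw => ⟨fun h => ?_, h5 v hv w hw⟩
    rcases lt_trichotomy (x.U v) (x.U w) with h' | h' | h'
    · exact h'
    · rw [hx hv hw h'] at h
      exact absurd h (lt_irrefl _)
    · exact absurd (h5 w hw v hv h') h.asymm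
  refine ⟨fun v' hv' w' hw' h => ?_, φ, h4, h2, fun v hv => ⟨?_, h3 v (ball_mono hk hv)⟩⟩
  · obtain ⟨v, hv, rfl⟩ := h4.1.surjOn hv'
    obtain ⟨w, hw, rfl⟩ := h4.1.surjOn hw'
    rcases lt_trichotomy (x.U v) (x.U w) with h' | h' | h'
    · exact absurd h (h5 v hv w hw h').ne
    · rw [hx hv hw h']
    · exact absurd h (h5 w hw v hv h').ne'
  · exact h4.rank x.connected y.connected (image_ends h2) x.ends_nonempty h6 hv

end Marked

open Marked

/-- A property that passes to all close enough graphs. -/
def Stable (p : Marked.{u} → Prop) : Prop :=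
  ∀ x, p x → ∀ᶠ r : ℕ in atTop, ∀ y, Close r x y → p y

theorem Stable.out {p : Marked.{u} → Prop} (hp : Stable p) (x : Marked.{u}) :
    p (Quot.out (Quot.mk Marked.Iso x)) ↔ p x := by
  have h : ∀ x y : Marked.{u}, x.Iso y → p x → p y := fun x y h hx =>
    let ⟨r, hr⟩ := (hp x hx).exists
    hr y (h.close r)
  exact Iff.of_eq (congrArg (Quot.lift p fun x y h' => propext ⟨h x y h', h y x h'.symm⟩)
    (Quot.out_eq (Quot.mk Marked.Iso x)))

theorem Stable.measurableSet {p : Marked.{u} → Prop} (hp : Stable p) :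
    MeasurableSet {y : GEdge.{u} | p (Quot.out y)} :=
  MeasurableSpace.measurableSet_generateFrom fun x hx =>
    (hp x ((hp.out x).1 hx)).mono fun _ h y hy => (hp.out y).2 (h y hy)

theorem stable_inj (k : ℕ) : Stable fun x : Marked.{u} => InjOn x.U (x.B k) := fun x hx =>
  (x.stable k hx).mono fun _ h y hy => (h y hy).1

theorem inj_iff (x : Marked.{u}) : Function.Injective x.U ↔ ∀ k, InjOn x.U (x.B k) := by
  refine ⟨fun h k => h.injOn, fun h v w e => ?_⟩
  obtain ⟨k, hk⟩ := exists_ball (G := x.G) x.ends_nonempty v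
  obtain ⟨l, hl⟩ := exists_ball (G := x.G) x.ends_nonempty w
  exact h (max k l) (ball_mono (le_max_left _ _) hk) (ball_mono (le_max_right _ _) hl) e

theorem measurableSet_inj :
    MeasurableSet {y : GEdge.{u} | Function.Injective (Quot.out y).U} := by
  simp only [inj_iff, setOf_forall]
  exact MeasurableSet.iInter fun k => (stable_inj k).measurableSet

theorem stable_adj (k i j : ℕ) : Stable fun x : Marked.{u} => InjOn x.U (x.B k) ∧
    ∃ v ∈ x.B k, ∃ w ∈ x.B k, x.rk v = i ∧ x.rk w = j ∧ x.G.Adj v w := by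
  rintro x ⟨hx, v, hv, w, hw, h1, h2, h3⟩
  filter_upwards [x.stable k hx] with r h y hy
  obtain ⟨a1, φ, a2, -, a4⟩ := h y hy
  exact ⟨a1, φ v, a2.1.mapsTo hv, φ w, a2.1.mapsTo hw, (a4 v hv).1.trans h1,
    (a4 w hw).1.trans h2, (a2.2 v hv w hw).2 h3⟩

theorem stable_lab (k i : ℕ) {W : Set I} (hW : IsOpen W) : Stable fun x : Marked.{u} =>
    InjOn x.U (x.B k) ∧ ∃ v ∈ x.B k, x.rk v = i ∧ x.U v ∈ W := by
  rintro x ⟨hx, v, hv, h1, h2⟩
  obtain ⟨ε, hε, hb⟩ := Metric.isOpen_iff.1 hW _ h2
  filter_upwards [x.stable k hx,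
    tendsto_one_div_add_atTop_nhds_zero_nat.eventually (gt_mem_nhds hε)] with r h hr y hy
  obtain ⟨a1, φ, a2, -, a4⟩ := h y hy
  exact ⟨a1, φ v, a2.1.mapsTo hv, (a4 v hv).1.trans h1, hb ((a4 v hv).2.trans hr)⟩

theorem stable_edge (s : Sym2 ℕ) : Stable fun x : Marked.{u} =>
    InjOn x.U (x.B 0) ∧ Sym2.map x.rk x.e = s := by
  rintro x ⟨hx, h1⟩
  filter_upwards [x.stable 0 hx] with r h y hy
  obtain ⟨a1, φ, -, a3, a4⟩ := h y hy
  refine ⟨a1, ?_⟩
  rw [← a3, Sym2.map_map, ← h1]
  exact Sym2.map_congr fun v hv => (a4 v ⟨v, hv, by simp⟩).1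

/-- The enumeration of the vertices by rank. -/
noncomputable def enum (x : Marked.{u}) (h : Function.Injective x.U) : x.V ≃ ℕ :=
  haveI := x.infinite
  Equiv.ofBijective x.rk (rank_bijective x.connected x.locFin x.ends_finite x.ends_nonempty h)

theorem enum_symm {x : Marked.{u}} (h : Function.Injective x.U) {v : x.V} {i : ℕ} :
    x.rk v = i ↔ v = (enum x h).symm i := by
  rw [Equiv.eq_symm_apply]; rfl

open Classical in
/-- The canonical representative on the vertex set `ℕ`. -/
noncomputable def canon (x : Marked.{u}) : SimpleGraph ℕ × (ℕ → I) :=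
  if h : Function.Injective x.U then (x.G.map (enum x h).toEmbedding, x.U ∘ (enum x h).symm)
  else (⊥, fun _ => 0)

theorem canon_pos {x : Marked.{u}} (h : Function.Injective x.U) :
    canon x = (x.G.map (enum x h).toEmbedding, x.U ∘ (enum x h).symm) := dif_pos h

theorem canon_neg {x : Marked.{u}} (h : ¬ Function.Injective x.U) :
    canon x = (⊥, fun _ => 0) := dif_neg h

theorem measurable_canon : Measurable fun y : GEdge.{u} => canon (Quot.out y) := by
  refine Measurable.prodMk (measurable_iff_adj.2 fun i j => ?_) (measurable_pi_iff.2 fun i => ?_)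
  · rw [← measurableSet_setOf]
    show MeasurableSet {y : GEdge.{u} | (canon (Quot.out y)).1.Adj i j}
    convert measurableSet_inj.inter
      (MeasurableSet.iUnion fun k => (stable_adj k i j).measurableSet) using 1
    ext y
    simp only [mem_setOf_eq, mem_inter_iff, mem_iUnion]
    generalize Quot.out y = x
    by_cases h : Function.Injective x.U
    · simp only [canon_pos h, h, true_and, enum_symm h, h.injOn, map_adj]
      constructor
      · rintro ⟨v, w, h1, rfl, rfl⟩
        obtain ⟨k, hk⟩ := exists_ball (G := x.G) x.ends_nonempty v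
        obtain ⟨l, hl⟩ := exists_ball (G := x.G) x.ends_nonempty w
        exact ⟨max k l, v, ball_mono (le_max_left _ _) hk, w, ball_mono (le_max_right _ _) hl,
          by simp, by simp, h1⟩
      · rintro ⟨k, v, -, w, -, rfl, rfl, h1⟩
        exact ⟨_, _, h1, by simp, by simp⟩
    · simp [h, canon_neg h]
  · refine measurable_of_isOpen fun W hW => ?_
    show MeasurableSet {y : GEdge.{u} | (canon (Quot.out y)).2 i ∈ W}
    convert (measurableSet_inj.inter
      (MeasurableSet.iUnion fun k => (stable_lab k i hW).measurableSet)).union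
      (measurableSet_inj.compl.inter (MeasurableSet.const ((0 : I) ∈ W))) using 1
    ext y
    simp only [mem_setOf_eq, mem_inter_iff, mem_iUnion, mem_union, mem_compl_iff, mem_preimage]
    generalize Quot.out y = x
    by_cases h : Function.Injective x.U
    · simp only [canon_pos h, h, true_and, enum_symm h, h.injOn, not_true, false_and, or_false,
        Function.comp_apply]
      constructor
      · intro h1
        obtain ⟨k, hk⟩ := exists_ball (G := x.G) x.ends_nonempty ((enum x h).symm i)
        exact ⟨k, _, hk, rfl, h1⟩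
      · rintro ⟨k, v, -, rfl, h1⟩
        exact h1
    · simp [h, canon_neg h]

open Classical in
/-- The rule on isomorphism classes. -/
noncomputable def rule (y : GEdge.{u}) : Bool :=
  decide (Function.Injective (Quot.out y).U ∧
    factor (Quot.out y).G (Quot.out y).U (Quot.out y).e = true)

theorem measurable_rule : Measurable rule.{u} := by
  refine measurable_to_bool ?_
  have : Countable (Sym2 ℕ) := Quotient.countable
  convert measurableSet_inj.inter (MeasurableSet.iUnion fun s : Sym2 ℕ =>
    (stable_edge s).measurableSet.inter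
      (((measurable_factor s).comp measurable_canon) (measurableSet_singleton true))) using 1
  ext y
  simp only [mem_setOf_eq, mem_inter_iff, mem_iUnion, mem_preimage, mem_singleton_iff, rule,
    decide_eq_true_eq, Function.comp_apply]
  generalize Quot.out y = x
  refine and_congr_right fun h => ?_
  simp only [h.injOn, true_and, canon_pos h, exists_eq_left']
  rw [← factor_map (enum x h) x.G x.U x.e]
  rfl

theorem factor_iso {x y : Marked.{u}} (h : x.Iso y) :
    factor x.G x.U x.e = factor y.G y.U y.e := by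
  obtain ⟨τ, h1, h2⟩ := h
  have e1 : x.G.map τ.toEquiv.toEmbedding = y.G := by
    ext a b
    obtain ⟨a, rfl⟩ := τ.surjective a
    obtain ⟨b, rfl⟩ := τ.surjective b
    rw [τ.map_rel_iff]
    exact map_adj_apply (f := τ.toEquiv.toEmbedding)
  have e2 : x.U ∘ τ.toEquiv.symm = y.U := funext fun v => by
    rw [Function.comp_apply, ← h2]
    exact congrArg y.U (τ.apply_symm_apply v)
  rw [← factor_map τ.toEquiv x.G x.U x.e, e1, e2, ← h1]
  rfl

theorem rule_mk (x : Marked.{u}) (h : Function.Injective x.U) :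
    rule (Quot.mk _ x) = factor x.G x.U x.e := by
  have e1 : Function.Injective (Quot.out (Quot.mk Marked.Iso x)).U :=
    (inj_iff _).2 fun k => ((stable_inj k).out x).2 h.injOn
  have e2 := congrArg (Quot.lift (fun x : Marked.{u} => factor x.G x.U x.e)
    fun _ _ h' => factor_iso h') (Quot.out_eq (Quot.mk Marked.Iso x))
  rw [Bool.eq_iff_iff]
  refine (@decide_eq_true_iff _ (_)).trans ?_
  exact ⟨fun h1 => (Eq.symm e2).trans h1.2, fun h1 => ⟨e1, Eq.trans e2 h1⟩⟩

/-- One Borel function on isomorphism classes has the law of the FUSF on every graph. -/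
theorem universal : ∃ Φ : GEdge.{u} → Bool, Measurable Φ ∧
    ∀ g : Gr.{u}, IsFUSF g.G (law Φ g) := by
  refine ⟨rule, measurable_rule, fun g => ?_⟩
  have := countable_of_locallyFinite g.G g.connected g.locFin
  have e : law rule g = (iidLabels g.V).map fun U (e : g.G.edgeSet) => factor g.G U e := by
    refine Measure.map_congr ?_
    filter_upwards [ae_injective (V := g.V)] with U hU
    funext e
    exact rule_mk ⟨g, U, e⟩ hU
  rw [e]
  exact isFUSF_factor g.G g.connected g.locFin

theorem graphFactor (ρ : Measure GStar.{u}) : IsGraphFactor ρ :=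
  let ⟨Φ, h1, h2⟩ := universal.{u}
  ⟨Φ, h1, Eventually.of_forall fun _ x _ => h2 x.toGr⟩

end Vale.Agent.P143L45
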